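import Mathlib
import Vale.Agent.P192.Main

/-!
P186: the finite residual of a finitely presented group with a faithful action with uniformly
linearly growing orbital graphs is a torsion group.
-/

namespace Vale.Agent.P186

open Subgroup Vale.Agent.P196 Vale.Agent.P192

universe u v w

variable {G : Type*} [Group G] {Ω : Type w} [MulAction G Ω] {k : ℕ} {a : Fin k → G}
variable {O : Set Ω} {h : Ω → ℕ} {c L d : ℕ} {φ ψ : Ω → Ω}

/-- from two matched windows, an action on the cyclic cover, killing all relators of length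
at most `ℓ`, with a short words moving a deep point surviving -/
theorem deep_move (hm : Match a O h c L d φ ψ) (hd : 2 * L + 3 < d)
    (hO : ∀ g : G, ∀ y ∈ O, g • y ∈ O)
    (hlip : ∀ g, IsGen a g → ∀ y ∈ O, h (g • y) ≤ h y + 1 ∧ h y ≤ h (g • y) + 1)
    (hfin : {y | y ∈ O ∧ h y ≤ c + d}.Finite) (ℓ : ℕ) (hL : ℓ + 2 ≤ L)
    (R : Set (FreeGroup (Fin k)))
    (hR : ∀ r ∈ R, r.toWord.length ≤ ℓ ∧ FreeGroup.lift a r = 1)
:
    ∃ (M : Type w) (_ : Finite M) (F : FreeGroup (Fin k) →* Equiv.Perm (M × ℤ)),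
      (∀ r ∈ R, F r = 1) ∧
      (∀ g y i m, F g (y, i + m) = ((F g (y, i)).1, (F g (y, i)).2 + m)) ∧
      ∀ u : FreeGroup (Fin k), u.toWord.length ≤ ℓ → ∀ y ∈ O, c < h y → h y ≤ c + d →
        c < h (FreeGroup.lift a u • y) → h (FreeGroup.lift a u • y) ≤ c + d →
        FreeGroup.lift a u • y ≠ y → ∃ z, (F u (z, 0)).1 ≠ z := by
  let M := {y : Ω // y ∈ O ∧ c < h y ∧ h y ≤ c + d}
  have hfinM : Finite M := (hfin.subset fun y hy => ⟨hy.1, hy.2.2⟩).to_subtype
  have act : ∀ g, IsGen a g → ∀ y : M, fold h c d φ ψ (g • y.1) ∈ O ∧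
      c < h (fold h c d φ ψ (g • y.1)) ∧ h (fold h c d φ ψ (g • y.1)) ≤ c + d := by
    rintro g hg ⟨y, hy, h1, h2⟩
    obtain ⟨l1, l2⟩ := hlip g hg y hy
    dsimp only
    exact fold_mem hm (by omega) (hO g y hy) (by omega) (by omega)
  have inv : ∀ g, IsGen a g → IsGen a g⁻¹ := by
    rintro g ⟨s, rfl | rfl⟩
    exacts [⟨s, .inr rfl⟩, ⟨s, .inl (inv_inv _)⟩]
  -- the motion of a generator on the cover
  let mv : ∀ g, IsGen a g → M × ℤ → M × ℤ := fun g hg p =>
    (⟨_, act g hg p.1⟩, p.2 + sheet h c d (g • p.1.1))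
  have cancel : ∀ g g', ∀ hg : IsGen a g, ∀ hg' : IsGen a g', g' * g = 1 →
      ∀ p : M × ℤ, mv g' hg' (mv g hg p) = p := by
    rintro g g' hg hg' e ⟨⟨y, hy, h1, h2⟩, i⟩
    obtain ⟨l1, l2⟩ := hlip g hg y hy
    have e1 := fold_step (T := 1) hm (by omega) hO hlip hg' (hO g y hy) (r := 1) (by omega)
      (by omega) (by omega)
    have e2 := sheet_step hm (by omega) hO hlip hg' (hO g y hy) (r := 1) (by omega)
      (by omega) (by omega)
    rw [← mul_smul g', e, one_smul] at e1 e2
    rw [sheet_mid h1 h2] at e2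
    refine Prod.ext (Subtype.ext ?_) ?_
    · change fold h c d φ ψ (g' • fold h c d φ ψ (g • y)) = y
      rw [e1, fold_mid h1 h2]
    · change i + sheet h c d (g • y) + sheet h c d (g' • fold h c d φ ψ (g • y)) = i
      omega
  let σ : Fin k → Equiv.Perm (M × ℤ) := fun s =>
    { toFun := mv (a s) ⟨s, .inl rfl⟩
      invFun := mv (a s)⁻¹ ⟨s, .inr rfl⟩
      left_inv := cancel (a s) (a s)⁻¹ ⟨s, .inl rfl⟩ ⟨s, .inr rfl⟩ (inv_mul_cancel _)
      right_inv := cancel (a s)⁻¹ (a s) ⟨s, .inr rfl⟩ ⟨s, .inl rfl⟩ (mul_inv_cancel _) }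
  let F := FreeGroup.lift σ
  have shift : ∀ g y i m, F g (y, i + m) = ((F g (y, i)).1, (F g (y, i)).2 + m) := by
    intro g
    induction g using FreeGroup.induction_on with
    | C1 => simp
    | of s =>
      intro y i m
      refine Prod.ext ?_ ?_ <;> simp [F, σ, mv]
      ring
    | inv_of s _ =>
      intro y i m
      refine Prod.ext ?_ ?_ <;> simp [F, σ, mv]
      ring
    | mul u v hu hv =>
      intro y i m
      rw [map_mul, Equiv.Perm.mul_apply, Equiv.Perm.mul_apply, hv]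
      exact hu (F v (y, i)).1 (F v (y, i)).2 m
  have word : ∀ l : List (Fin k × Bool), l.length ≤ ℓ → ∀ (y : M) (i : ℤ),
      (F (FreeGroup.mk l) (y, i)).1.1 =
        fold h c d φ ψ (FreeGroup.lift a (FreeGroup.mk l) • y.1) ∧
      (F (FreeGroup.mk l) (y, i)).2 =
        i + sheet h c d (FreeGroup.lift a (FreeGroup.mk l) • y.1) ∧
      c < h (FreeGroup.lift a (FreeGroup.mk l) • y.1) + l.length ∧
      h (FreeGroup.lift a (FreeGroup.mk l) • y.1) ≤ c + d + l.length := by
    intro l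
    induction l with
    | nil =>
      intro _ y i
      simp only [← FreeGroup.one_eq_mk, map_one, one_smul, Equiv.Perm.one_apply,
        fold_mid y.2.2.1 y.2.2.2, sheet_mid y.2.2.1 y.2.2.2, add_zero, true_and]
      exact ⟨by simpa using y.2.2.1, by simpa using y.2.2.2⟩
    | cons p l ih =>
      intro hlen y i
      simp only [List.length_cons] at hlen ⊢
      obtain ⟨e, e', e1, e2⟩ := ih (by omega) y i
      have hsplit : FreeGroup.mk (p :: l) = FreeGroup.mk [p] * FreeGroup.mk l := by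
        rw [FreeGroup.mul_mk]; rfl
      obtain ⟨s, b⟩ := p
      have hgen : IsGen a (FreeGroup.lift a (FreeGroup.mk [(s, b)])) := by
        cases b
        · exact ⟨s, .inr (by simp)⟩
        · exact ⟨s, .inl (by simp)⟩
      have hF : ∀ q : M × ℤ, (F (FreeGroup.mk [(s, b)]) q).1.1 =
          fold h c d φ ψ (FreeGroup.lift a (FreeGroup.mk [(s, b)]) • q.1.1) ∧
          (F (FreeGroup.mk [(s, b)]) q).2 =
            q.2 + sheet h c d (FreeGroup.lift a (FreeGroup.mk [(s, b)]) • q.1.1) := by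
        intro q
        cases b <;> simp [F, σ, mv]
      have hyO := hO (FreeGroup.lift a (FreeGroup.mk l)) y.1 y.2.1
      obtain ⟨l1, l2⟩ := hlip _ hgen _ hyO
      rw [hsplit, map_mul, map_mul, Equiv.Perm.mul_apply, (hF _).1, (hF _).2, e, e', mul_smul,
        fold_step (T := 1) hm (by omega) hO hlip hgen hyO (r := l.length) (by omega) e1 e2,
        add_assoc, sheet_step hm (by omega) hO hlip hgen hyO (r := l.length) (by omega) e1 e2]
      exact ⟨rfl, rfl, by omega, by omega⟩
  refine ⟨M, hfinM, F, fun r hr => ?_, shift, fun u hu y hy h1 h2 h3 h4 hne => ?_⟩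
  · refine Equiv.ext fun ⟨y, i⟩ => ?_
    obtain ⟨w1, w2, -, -⟩ := word _ (hR r hr).1 y i
    rw [FreeGroup.mk_toWord, (hR r hr).2, one_smul] at w1 w2
    rw [fold_mid y.2.2.1 y.2.2.2] at w1
    rw [sheet_mid y.2.2.1 y.2.2.2, add_zero] at w2
    exact Prod.ext (Subtype.ext w1) w2
  · refine ⟨⟨y, hy, h1, h2⟩, fun e => hne ?_⟩
    obtain ⟨w1, -, -, -⟩ := word _ hu ⟨y, hy, h1, h2⟩ 0
    rw [FreeGroup.mk_toWord, fold_mid h3 h4, e] at w1
    exact w1.symm

/-- an element that dies in every finite quotient has bounded cycles in every action with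
uniformly linearly growing orbital graphs -/
theorem pow_smul_eq {G : Type u} [Group G] [Group.IsFinitelyPresented G] {S : Set G}
    (hgen : closure S = ⊤) (hS : S.Finite) (C : ℕ) {g : G}
    (hg : ∀ N : Subgroup G, N.Normal → N.FiniteIndex → g ∈ N) :
    ∃ m, 0 < m ∧ ∀ (Ω : Type v) [MulAction G Ω],
      (∀ (x : Ω) n, 0 < n → (ball S x n).ncard ≤ C * n) → ∀ x : Ω, g ^ m • x = x := by
  classical
  obtain ⟨k, π, hπ, R, hR, hker⟩ := (inferInstance : Group.IsFinitelyPresented G).out
  let a : Fin k → G := fun s => π (FreeGroup.of s)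
  have ha : FreeGroup.lift a = π := FreeGroup.ext_hom _ _ fun s => FreeGroup.lift_apply_of
  have hA : closure (Set.range a) = ⊤ := by
    show closure (Set.range (π ∘ FreeGroup.of)) = ⊤
    rw [Set.range_comp, ← MonoidHom.map_closure, FreeGroup.closure_range_of,
      Subgroup.map_top_of_surjective _ hπ]
  choose wd hwd hwd' using fun s => exists_word hgen (a s)
  let T : ℕ := (Finset.univ.sup fun s => (wd s).length) + 1
  have hT : ∀ b ∈ Set.range a, ∃ l : List G, l.length ≤ T ∧ (∀ e ∈ l, e ∈ S ∨ e⁻¹ ∈ S) ∧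
      l.prod = b := by
    rintro _ ⟨s, rfl⟩
    exact ⟨wd s, (Finset.le_sup (f := fun s => (wd s).length) (Finset.mem_univ s)).trans
      (Nat.le_succ _), hwd s, hwd' s⟩
  obtain ⟨w, hw⟩ := hπ g
  obtain ⟨wl, hwl, hwl'⟩ := exists_word hA g
  let ℓ : ℕ := max (hR.toFinset.sup fun r => r.toWord.length) (max w.toWord.length wl.length)
  have hRr : ∀ r ∈ R, r.toWord.length ≤ ℓ ∧ FreeGroup.lift a r = 1 := fun r hr =>
    ⟨(Finset.le_sup (f := fun r => r.toWord.length) (hR.mem_toFinset.2 hr)).trans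
      (le_max_left _ _), by
      rw [ha, ← MonoidHom.mem_ker, ← hker]
      exact subset_normalClosure hr⟩
  let L : ℕ := ℓ + 2
  let D : ℕ := 3 * L + 4
  obtain ⟨P, hP⟩ := exists_match_finite.{v} k L (2 * C * T * D) D
  let K : ℕ := 2 * (P + 1)
  let N : ℕ := C * T * (K * D)
  refine ⟨N.factorial, N.factorial_pos, fun Ω _ hlin x => ?_⟩
  by_contra hx
  let O : Set Ω := MulAction.orbit G x
  have hO : ∀ g : G, ∀ y ∈ O, g • y ∈ O := fun g y hy =>
    MulAction.mem_orbit_of_mem_orbit g hy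
  have hexi : ∀ y ∈ O, ∃ m, y ∈ ball (Set.range a) x m := fun y hy => exists_ball hA hy
  let h : Ω → ℕ := fun y => sInf {m | y ∈ ball (Set.range a) x m}
  have hmem : ∀ y ∈ O, y ∈ ball (Set.range a) x (h y) := fun y hy => Nat.sInf_mem (hexi y hy)
  have hle : ∀ {y m}, y ∈ ball (Set.range a) x m → h y ≤ m := fun hy => Nat.sInf_le hy
  have hgenA : ∀ g, IsGen a g → g ∈ Set.range a ∨ g⁻¹ ∈ Set.range a := by
    rintro g ⟨s, rfl | rfl⟩
    exacts [.inl ⟨s, rfl⟩, .inr ⟨s, (inv_inv _).symm⟩]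
  have hinv : ∀ g, IsGen a g → IsGen a g⁻¹ := by
    rintro g ⟨s, rfl | rfl⟩
    exacts [⟨s, .inr rfl⟩, ⟨s, .inl (inv_inv _)⟩]
  have hlip1 : ∀ g, IsGen a g → ∀ y ∈ O, h (g • y) ≤ h y + 1 := fun g hg y hy =>
    hle (by simpa using ball_smul (hmem y hy) (l := [g]) (by simpa using hgenA g hg))
  have hlip : ∀ g, IsGen a g → ∀ y ∈ O, h (g • y) ≤ h y + 1 ∧ h y ≤ h (g • y) + 1 :=
    fun g hg y hy => ⟨hlip1 g hg y hy, by
      simpa using hlip1 g⁻¹ (hinv g hg) (g • y) (hO g y hy)⟩
  have hlev : ∀ m, {y | y ∈ O ∧ h y ≤ m}.Finite := fun m =>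
    (ball_finite (Set.finite_range a) m).subset fun y hy => ball_mono hy.2 (hmem y hy.1)
  have hcount : {y | y ∈ O ∧ h y ≤ K * D}.ncard ≤ N := by
    refine (Set.ncard_le_ncard (fun y hy => ball_mono hy.2 (hmem y hy.1))
      (ball_finite (Set.finite_range a) _)).trans ((Set.ncard_le_ncard (word_transfer hT x _)
      (ball_finite hS _)).trans ((hlin x _ (by positivity)).trans ?_))
    rw [← mul_assoc]
  obtain ⟨c, d, hd, hcd, hLc, φ, ψ, hm⟩ :=
    hP a O h K (by omega) hO (hlev _) le_rfl (by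
      have : 2 * N = 2 * C * T * D * K := by simp only [N]; ring
      omega)
  have hz : ∀ n : ℕ, g ^ n • x ∈ O := fun n => MulAction.mem_orbit x _
  have hgstep : ∀ n : ℕ, h (g ^ (n + 1) • x) ≤ h (g ^ n • x) + ℓ := by
    intro n
    have := hle (ball_smul (hmem _ (hz n)) hwl)
    rw [hwl', ← mul_smul, ← pow_succ'] at this
    have : wl.length ≤ ℓ := (le_max_right _ _).trans (le_max_right _ _)
    omega
  obtain ⟨n₀, hn₀⟩ : ∃ n, c + ℓ < h (g ^ n • x) := by
    by_contra hcon
    push Not at hcon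
    have hmaps : ∀ i ∈ Finset.range (N + 1), g ^ i • x ∈ (hlev (K * D)).toFinset := fun i _ =>
      (hlev _).mem_toFinset.2 ⟨hz i, by have := hcon i; omega⟩
    obtain ⟨i, hi, j, hj, hij, e⟩ := Finset.exists_ne_map_eq_of_card_lt_of_maps_to (by
      rw [Finset.card_range, ← Set.ncard_eq_toFinset_card _ (hlev _)]; omega) hmaps
    rw [Finset.mem_range] at hi hj
    apply hx
    have key : ∀ i j : ℕ, i < j → j ≤ N → g ^ i • x = g ^ j • x →
        g ^ N.factorial • x = x := by
      intro i j hij hj e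
      obtain ⟨p, rfl⟩ := Nat.le.dest hij.le
      rw [pow_add, mul_smul] at e
      have hp : g ^ p • x = x := (smul_left_cancel _ e).symm
      obtain ⟨q, hq⟩ := Nat.dvd_factorial (show 0 < p by omega) (show p ≤ N by omega)
      rw [hq, pow_mul]
      have : g ^ p ∈ MulAction.stabilizer G x := hp
      exact pow_mem this q
    rcases lt_or_gt_of_ne hij with hlt | hlt
    exacts [key i j hlt (by omega) e, key j i hlt (by omega) e.symm]
  have hx0 : h x ≤ 0 := hle ⟨[], by simp, by simp, by simp⟩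
  let n := Nat.find (⟨n₀, hn₀⟩ : ∃ n, c + ℓ < h (g ^ n • x))
  have hn : c + ℓ < h (g ^ n • x) := Nat.find_spec (⟨n₀, hn₀⟩ : ∃ n, c + ℓ < h (g ^ n • x))
  obtain ⟨p, hp⟩ : ∃ p, n = p + 1 := by
    refine Nat.exists_eq_succ_of_ne_zero fun e => ?_
    rw [e, pow_zero, one_smul] at hn
    omega
  have hp' : h (g ^ p • x) ≤ c + ℓ := not_lt.1 fun e => by
    have : n ≤ p := Nat.find_min' _ e
    omega
  have hn' : h (g ^ n • x) ≤ c + 2 * ℓ := by
    have := hgstep p
    rw [hp]; omega
  have hnext := hgstep n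
  have hback : h (g ^ n • x) ≤ h (g ^ (n + 1) • x) + ℓ := by
    have hl : ∀ e ∈ (wl.map fun e => e⁻¹).reverse, e ∈ Set.range a ∨ e⁻¹ ∈ Set.range a := by
      intro e he
      obtain ⟨u, hu, rfl⟩ := List.mem_map.1 (List.mem_reverse.1 he)
      rw [inv_inv]
      exact (hwl u hu).symm
    have := hle (ball_smul (hmem _ (hz (n + 1))) hl)
    rw [← List.prod_inv_reverse, hwl', pow_succ', mul_smul, inv_smul_smul, List.length_reverse,
      List.length_map] at this
    have : wl.length ≤ ℓ := (le_max_right _ _).trans (le_max_right _ _)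
    rw [pow_succ', mul_smul]
    omega
  have hne : g • g ^ n • x ≠ g ^ n • x := by
    intro e
    rw [← mul_smul, ← pow_succ', pow_succ, mul_smul, smul_left_cancel_iff] at e
    have e' : g ∈ MulAction.stabilizer G x := e
    exact hx (pow_mem e' N.factorial)
  obtain ⟨M, _, F, hF, hshift, hmove⟩ :=
    deep_move hm (by omega) hO hlip (hlev _) ℓ le_rfl R hRr
  rw [pow_succ', mul_smul] at hnext hback
  obtain ⟨z, hz'⟩ := hmove w ((le_max_left _ _).trans (le_max_right _ _)) (g ^ n • x) (hz n)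
    (by omega) (by omega) (by rw [ha, hw]; omega) (by rw [ha, hw]; omega)
    (by rw [ha, hw]; exact hne)
  -- the finite quotient
  let act : FreeGroup (Fin k) →* Equiv.Perm M :=
    { toFun := fun u =>
        { toFun := fun y => (F u (y, 0)).1
          invFun := fun y => (F u⁻¹ (y, 0)).1
          left_inv := fun y => by
            change (F u⁻¹ ((F u (y, 0)).1, 0)).1 = y
            have e := hshift u⁻¹ (F u (y, 0)).1 0 (F u (y, 0)).2
            rw [zero_add, Prod.mk.eta, map_inv, Equiv.Perm.inv_def, Equiv.symm_apply_apply] at e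
            rw [map_inv, Equiv.Perm.inv_def]
            exact (congrArg Prod.fst e).symm
          right_inv := fun y => by
            change (F u ((F u⁻¹ (y, 0)).1, 0)).1 = y
            have e := hshift u (F u⁻¹ (y, 0)).1 0 (F u⁻¹ (y, 0)).2
            rw [zero_add, Prod.mk.eta, map_inv, Equiv.Perm.inv_def, Equiv.apply_symm_apply] at e
            rw [map_inv, Equiv.Perm.inv_def]
            exact (congrArg Prod.fst e).symm }
      map_one' := Equiv.ext fun y => by simp
      map_mul' := fun u v => Equiv.ext fun y => by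
        change (F (u * v) (y, 0)).1 = (F u ((F v (y, 0)).1, 0)).1
        rw [map_mul, Equiv.Perm.mul_apply]
        have e := hshift u (F v (y, 0)).1 0 (F v (y, 0)).2
        rw [zero_add, Prod.mk.eta] at e
        exact (congrArg Prod.fst e).trans rfl }
  have hkerF : π.ker ≤ act.ker := by
    rw [← hker]
    refine normalClosure_le_normal fun r hr => MonoidHom.mem_ker.2 (Equiv.ext fun y => ?_)
    change (F r (y, 0)).1 = y
    rw [hF r hr]
    rfl
  have hmem' := hg (π.liftOfSurjective hπ ⟨act, hkerF⟩).ker inferInstance inferInstance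
  have h1 : π.liftOfSurjective hπ ⟨act, hkerF⟩ (π w) = act w :=
    MonoidHom.liftOfRightInverse_comp_apply _ _ _ _ w
  rw [hw, MonoidHom.mem_ker.1 hmem'] at h1
  exact hz' (DFunLike.congr_fun h1.symm z)

/-- finitely presented subgroups of groups with uniformly linearly growing orbital graphs:
elements dying in all finite quotients are torsion -/
theorem residual_torsion {Γ : Type u} [Group Γ] {Ω : Type v} [MulAction Γ Ω]
    [FaithfulSMul Γ Ω] {S : Set Γ} (hS : S.Finite) (hgen : closure S = ⊤) {C : ℕ}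
    (hlin : ∀ (x : Ω) n, 0 < n → (ball S x n).ncard ≤ C * n) (H : Subgroup Γ)
    [Group.IsFinitelyPresented H] (g : H)
    (hg : ∀ N : Subgroup H, N.Normal → N.FiniteIndex → g ∈ N) : IsOfFinOrder g := by
  classical
  obtain ⟨k, π, -, hA⟩ := exists_gens (G := H)
  let a : Fin k → H := fun s => π (FreeGroup.of s)
  choose wd hwd hwd' using fun s => exists_word hgen (a s : Γ)
  let T : ℕ := (Finset.univ.sup fun s => (wd s).length) + 1
  have hT : ∀ b ∈ Set.range (fun s => (a s : Γ)), ∃ l : List Γ, l.length ≤ T ∧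
      (∀ e ∈ l, e ∈ S ∨ e⁻¹ ∈ S) ∧ l.prod = b := by
    rintro _ ⟨s, rfl⟩
    exact ⟨wd s, (Finset.le_sup (f := fun s => (wd s).length) (Finset.mem_univ s)).trans
      (Nat.le_succ _), hwd s, hwd' s⟩
  obtain ⟨m, hm, hfix⟩ := pow_smul_eq.{u, v} hA (Set.finite_range a) (C * T) hg
  refine isOfFinOrder_iff_pow_eq_one.2 ⟨m, hm, Subtype.ext ?_⟩
  refine FaithfulSMul.eq_of_smul_eq_smul fun x : Ω => ?_
  rw [OneMemClass.coe_one, one_smul]
  refine hfix Ω (fun x n hn => ?_) x
  have hsub : ball (Set.range a) x n ⊆ ball S x (T * n) := by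
    refine fun y hy => word_transfer hT x _ ?_
    obtain ⟨l, h1, h2, rfl⟩ := hy
    refine ⟨l.map Subtype.val, by simpa using h1, fun e he => ?_, ?_⟩
    · obtain ⟨b, hb, rfl⟩ := List.mem_map.1 he
      rcases h2 b hb with ⟨s, hs⟩ | ⟨s, hs⟩
      exacts [.inl ⟨s, congrArg Subtype.val hs⟩, .inr ⟨s, congrArg Subtype.val hs⟩]
    · rw [show (l.map Subtype.val).prod = (l.prod : Γ) by simp]
      rfl
  rw [mul_assoc]
  exact (Set.ncard_le_ncard hsub (ball_finite hS _)).trans
    (hlin x _ (Nat.mul_pos (Nat.succ_pos _) hn))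

end Vale.Agent.P186
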